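import Vale.Agent.P006.Main

namespace Vale.Agent.Results.P006.A_full

theorem result :
    Asymptotics.IsEquivalent Filter.atTop
      (fun X : ℝ => ∑ p ∈ (Finset.range (⌊X⌋₊ + 1)).filter fun p : ℕ => p.Prime ∧ p % 3 = 1,
        (∑ x ∈ Finset.range p, Complex.exp (2 * Real.pi * Complex.I * (x : ℂ) ^ 3 / (p : ℂ))) /
          (2 * ((Real.sqrt p : ℝ) : ℂ)))
      fun X : ℝ => (((2 * Real.pi) ^ (2 / 3 : ℝ) / (5 * Real.Gamma (2 / 3)) *
        (X ^ (5 / 6 : ℝ) / Real.log X) : ℝ) : ℂ) :=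
  Vale.Agent.P006.rat_equiv Vale.Agent.P006.patterson

end Vale.Agent.Results.P006.A_full
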